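import Vale.Agent.P181.SZN2b.Core
import Vale.Agent.P181.H503.TypeAll

set_option autoImplicit false

/-!
# P181, SZ (N2): `DecBn → LBC`
-/

namespace Vale.Agent.P181.SZN2b

/-- **(N2)** from `DecBn`. -/
theorem lbc (hDec : SZ.DecBn) : SZ.LBC := lbc_of H503.lb10 hDec

end Vale.Agent.P181.SZN2b
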